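import Mathlib

namespace Vale.Agent.Lib.P205

open Real MeasureTheory
open scoped ContDiff

/-- A continuous periodic real function is bounded above. -/
theorem exists_bound_of_periodic {f : ℝ → ℝ} {L : ℝ} (hL : 0 < L) (hf : Continuous f)
    (hper : ∀ x, f (x + L) = f x) : ∃ C, ∀ x, f x ≤ C := by
  obtain ⟨C, hC⟩ :=
    (isCompact_Icc (a := (0 : ℝ)) (b := L)).exists_bound_of_continuousOn hf.continuousOn
  refine ⟨C, fun x => ?_⟩
  have hp : Function.Periodic f L := hper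
  obtain ⟨y, hy, hxy⟩ := hp.exists_mem_Ico₀ hL x
  rw [hxy]
  exact (Real.le_norm_self _).trans (hC y ⟨hy.1, hy.2.le⟩)

/-- The map `(x, y) ↦ (r x cos (k y) / k, r x sin (k y) / k, R cos (φ x), R sin (φ x))`. -/
noncomputable def torusMap (r φ : ℝ → ℝ) (k R : ℝ) : ℝ × ℝ → EuclideanSpace ℝ (Fin 4) :=
  fun p => !₂[r p.1 * (cos (k * p.2) / k), r p.1 * (sin (k * p.2) / k),
    R * cos (φ p.1) * 1, R * sin (φ p.1) * 1]

theorem hasFDerivAt_mul_sep {a b : ℝ → ℝ} {a' b' : ℝ} {p : ℝ × ℝ}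
    (ha : HasDerivAt a a' p.1) (hb : HasDerivAt b b' p.2) :
    HasFDerivAt (fun q : ℝ × ℝ => a q.1 * b q.2)
      ((a' * b p.2) • ContinuousLinearMap.fst ℝ ℝ ℝ +
        (a p.1 * b') • ContinuousLinearMap.snd ℝ ℝ ℝ) p := by
  have h1 : HasFDerivAt (fun q : ℝ × ℝ => a q.1) (a' • ContinuousLinearMap.fst ℝ ℝ ℝ) p :=
    ha.comp_hasFDerivAt p hasFDerivAt_fst
  have h2 : HasFDerivAt (fun q : ℝ × ℝ => b q.2) (b' • ContinuousLinearMap.snd ℝ ℝ ℝ) p :=
    hb.comp_hasFDerivAt p hasFDerivAt_snd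
  have h3 : HasFDerivAt (fun q : ℝ × ℝ => a q.1 * b q.2)
      (a p.1 • (b' • ContinuousLinearMap.snd ℝ ℝ ℝ) +
        b p.2 • (a' • ContinuousLinearMap.fst ℝ ℝ ℝ)) p := h1.mul h2
  have e : ((a' * b p.2) • ContinuousLinearMap.fst ℝ ℝ ℝ +
        (a p.1 * b') • ContinuousLinearMap.snd ℝ ℝ ℝ) =
      (a p.1 • (b' • ContinuousLinearMap.snd ℝ ℝ ℝ) +
        b p.2 • (a' • ContinuousLinearMap.fst ℝ ℝ ℝ)) := by
    refine ContinuousLinearMap.ext fun v => ?_
    simp
    ring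
  rw [e]
  exact h3

theorem torusMap_contDiff {r φ : ℝ → ℝ} (k R : ℝ) (hr : ContDiff ℝ ∞ r)
    (hφ : ContDiff ℝ ∞ φ) : ContDiff ℝ ∞ (torusMap r φ k R) := by
  rw [contDiff_euclidean]
  intro i
  have h1 : ContDiff ℝ ∞ (fun p : ℝ × ℝ => r p.1) := hr.comp contDiff_fst
  have h2 : ContDiff ℝ ∞ (fun p : ℝ × ℝ => φ p.1) := hφ.comp contDiff_fst
  have h3 : ContDiff ℝ ∞ (fun p : ℝ × ℝ => k * p.2) := contDiff_const.mul contDiff_snd
  fin_cases i
  · show ContDiff ℝ ∞ (fun p : ℝ × ℝ => r p.1 * (cos (k * p.2) / k))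
    exact h1.mul ((Real.contDiff_cos.comp h3).div_const k)
  · show ContDiff ℝ ∞ (fun p : ℝ × ℝ => r p.1 * (sin (k * p.2) / k))
    exact h1.mul ((Real.contDiff_sin.comp h3).div_const k)
  · show ContDiff ℝ ∞ (fun p : ℝ × ℝ => R * cos (φ p.1) * 1)
    exact (contDiff_const.mul (Real.contDiff_cos.comp h2)).mul contDiff_const
  · show ContDiff ℝ ∞ (fun p : ℝ × ℝ => R * sin (φ p.1) * 1)
    exact (contDiff_const.mul (Real.contDiff_sin.comp h2)).mul contDiff_const

/-- The first fundamental form of `torusMap`. -/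
theorem torusMap_inner {r φ : ℝ → ℝ} {k R : ℝ} (hk : k ≠ 0) (hr : ContDiff ℝ ∞ r)
    (hφ : ContDiff ℝ ∞ φ) (p v w : ℝ × ℝ) :
    inner ℝ (fderiv ℝ (torusMap r φ k R) p v) (fderiv ℝ (torusMap r φ k R) p w) =
      ((deriv r p.1) ^ 2 / k ^ 2 + R ^ 2 * (deriv φ p.1) ^ 2) * v.1 * w.1 +
        (r p.1) ^ 2 * v.2 * w.2 := by
  have hsm := torusMap_contDiff k R hr hφ
  have hF : HasFDerivAt (torusMap r φ k R) (fderiv ℝ (torusMap r φ k R) p) p :=
    ((hsm.differentiable (by simp)) p).hasFDerivAt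
  have hr' : HasDerivAt r (deriv r p.1) p.1 :=
    ((hr.differentiable (by simp)) p.1).hasDerivAt
  have hφ' : HasDerivAt φ (deriv φ p.1) p.1 :=
    ((hφ.differentiable (by simp)) p.1).hasDerivAt
  have hc : HasDerivAt (fun y : ℝ => cos (k * y) / k) (-sin (k * p.2)) p.2 := by
    have h : HasDerivAt (fun y : ℝ => cos (k * y) / k) (-sin (k * p.2) * (k * 1) / k) p.2 :=
      ((hasDerivAt_id p.2).const_mul k).cos.div_const k
    have e : -sin (k * p.2) * (k * 1) / k = -sin (k * p.2) := by field_simp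
    rw [e] at h
    exact h
  have hs : HasDerivAt (fun y : ℝ => sin (k * y) / k) (cos (k * p.2)) p.2 := by
    have h : HasDerivAt (fun y : ℝ => sin (k * y) / k) (cos (k * p.2) * (k * 1) / k) p.2 :=
      ((hasDerivAt_id p.2).const_mul k).sin.div_const k
    have e : cos (k * p.2) * (k * 1) / k = cos (k * p.2) := by field_simp
    rw [e] at h
    exact h
  have hRc : HasDerivAt (fun x : ℝ => R * cos (φ x)) (-(R * sin (φ p.1) * deriv φ p.1)) p.1 := by
    have h : HasDerivAt (fun x : ℝ => R * cos (φ x)) (R * (-sin (φ p.1) * deriv φ p.1)) p.1 :=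
      hφ'.cos.const_mul R
    have e : R * (-sin (φ p.1) * deriv φ p.1) = -(R * sin (φ p.1) * deriv φ p.1) := by ring
    rw [e] at h
    exact h
  have hRs : HasDerivAt (fun x : ℝ => R * sin (φ x)) (R * cos (φ p.1) * deriv φ p.1) p.1 := by
    have h : HasDerivAt (fun x : ℝ => R * sin (φ x)) (R * (cos (φ p.1) * deriv φ p.1)) p.1 :=
      hφ'.sin.const_mul R
    have e : R * (cos (φ p.1) * deriv φ p.1) = R * cos (φ p.1) * deriv φ p.1 := by ring
    rw [e] at h
    exact h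
  have h1 : HasDerivAt (fun _ : ℝ => (1 : ℝ)) 0 p.2 := hasDerivAt_const p.2 1
  have key : ∀ (i : Fin 4) (L : ℝ × ℝ →L[ℝ] ℝ),
      HasFDerivAt (fun q => torusMap r φ k R q i) L p →
      ∀ u : ℝ × ℝ, (fderiv ℝ (torusMap r φ k R) p u) i = L u := by
    intro i L hL u
    have h := ((EuclideanSpace.proj (𝕜 := ℝ) i).hasFDerivAt).comp p hF
    have := h.unique hL
    have := congrArg (fun M : ℝ × ℝ →L[ℝ] ℝ => M u) this
    simpa using this
  have e0 := key 0 _ (hasFDerivAt_mul_sep hr' hc)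
  have e1 := key 1 _ (hasFDerivAt_mul_sep hr' hs)
  have e2 := key 2 _ (hasFDerivAt_mul_sep hRc h1)
  have e3 := key 3 _ (hasFDerivAt_mul_sep hRs h1)
  simp only [PiLp.inner_apply, Fin.sum_univ_four, e0, e1, e2, e3]
  simp
  have hcs : cos (k * p.2) ^ 2 + sin (k * p.2) ^ 2 = 1 := cos_sq_add_sin_sq _
  have hcs2 : cos (φ p.1) ^ 2 + sin (φ p.1) ^ 2 = 1 := cos_sq_add_sin_sq _
  field_simp
  linear_combination
    (deriv r p.1 ^ 2 * v.1 * w.1 + r p.1 ^ 2 * k ^ 2 * v.2 * w.2) * hcs +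
      (R ^ 2 * deriv φ p.1 ^ 2 * k ^ 2 * v.1 * w.1) * hcs2

/-- Every smooth warped-product metric `E(x) dx^2 + G(x) dy^2` on the torus
`R^2 / (L Z x 2 pi Z)` is induced by a smooth doubly periodic map into Euclidean 4-space. -/
theorem exists_warped_torus {L : ℝ} (hL : 0 < L) {E G : ℝ → ℝ}
    (hE : ContDiff ℝ ∞ E) (hG : ContDiff ℝ ∞ G)
    (hEpos : ∀ x, 0 < E x) (hGpos : ∀ x, 0 < G x)
    (hEper : ∀ x, E (x + L) = E x) (hGper : ∀ x, G (x + L) = G x) :
    ∃ F : ℝ × ℝ → EuclideanSpace ℝ (Fin 4), ContDiff ℝ ∞ F ∧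
      (∀ x y, F (x + L, y) = F (x, y)) ∧ (∀ x y, F (x, y + 2 * π) = F (x, y)) ∧
      ∀ p v w : ℝ × ℝ, inner ℝ (fderiv ℝ F p v) (fderiv ℝ F p w) =
        E p.1 * v.1 * w.1 + G p.1 * v.2 * w.2 := by
  -- the profile radius
  set r : ℝ → ℝ := fun x => √(G x) with hrdef
  have hr : ContDiff ℝ ∞ r := hG.sqrt (fun x => (hGpos x).ne')
  have hrper : ∀ x, r (x + L) = r x := fun x => by simp [hrdef, hGper x]
  have hr2 : ∀ x, r x ^ 2 = G x := fun x => Real.sq_sqrt (hGpos x).le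
  have hdr : ContDiff ℝ ∞ (deriv r) := (contDiff_infty_iff_deriv.mp hr).2
  have hdrper : ∀ x, deriv r (x + L) = deriv r x := by
    intro x
    rw [← deriv_comp_add_const]
    have : (fun x => r (x + L)) = r := funext hrper
    rw [this]
  -- choose the winding number
  have hfc : Continuous (fun x => deriv r x ^ 2 / E x) :=
    (hdr.continuous.pow 2).div hE.continuous (fun x => (hEpos x).ne')
  obtain ⟨C, hC⟩ := exists_bound_of_periodic hL hfc (fun x => by simp [hdrper x, hEper x])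
  obtain ⟨k, hk⟩ := exists_nat_gt (max C 1)
  have hk1 : (1 : ℝ) < k := lt_of_le_of_lt (le_max_right _ _) hk
  have hkC : C < (k : ℝ) ^ 2 := by
    have h1 : C < k := lt_of_le_of_lt (le_max_left _ _) hk
    nlinarith
  have hkpos : (0 : ℝ) < k := by linarith
  have hgap : ∀ x, 0 < E x - deriv r x ^ 2 / (k : ℝ) ^ 2 := by
    intro x
    have h1 : deriv r x ^ 2 / E x < (k : ℝ) ^ 2 := lt_of_le_of_lt (hC x) hkC
    have h2 : deriv r x ^ 2 < (k : ℝ) ^ 2 * E x := by
      rwa [div_lt_iff₀ (hEpos x)] at h1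
    have h3 : deriv r x ^ 2 / (k : ℝ) ^ 2 < E x := by
      rw [div_lt_iff₀ (by positivity)]
      linarith
    linarith
  -- the speed of the second circle
  set σ : ℝ → ℝ := fun x => √(E x - deriv r x ^ 2 / (k : ℝ) ^ 2) with hσdef
  have hσ : ContDiff ℝ ∞ σ :=
    (hE.sub ((hdr.pow 2).div_const _)).sqrt (fun x => (hgap x).ne')
  have hσpos : ∀ x, 0 < σ x := fun x => Real.sqrt_pos.mpr (hgap x)
  have hσ2 : ∀ x, σ x ^ 2 = E x - deriv r x ^ 2 / (k : ℝ) ^ 2 :=
    fun x => Real.sq_sqrt (hgap x).le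
  have hσper : Function.Periodic σ L := fun x => by
    simp [hσdef, hdrper x, hEper x]
  set Sg : ℝ → ℝ := fun x => ∫ t in (0 : ℝ)..x, σ t with hSgdef
  have hSgd : ∀ x, HasDerivAt Sg (σ x) x := fun x =>
    intervalIntegral.integral_hasDerivAt_right (hσ.continuous.intervalIntegrable _ _)
      hσ.continuous.aestronglyMeasurable.stronglyMeasurableAtFilter hσ.continuous.continuousAt
  have hSg : ContDiff ℝ ∞ Sg := by
    rw [contDiff_infty_iff_deriv]
    refine ⟨fun x => (hSgd x).differentiableAt, ?_⟩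
    have : deriv Sg = σ := funext fun x => (hSgd x).deriv
    rw [this]
    exact hσ
  have hSgper : ∀ x, Sg (x + L) = Sg x + Sg L := by
    intro x
    have h1 : (∫ t in (0 : ℝ)..x, σ t) + (∫ t in x..(x + L), σ t) = ∫ t in (0 : ℝ)..(x + L), σ t :=
      intervalIntegral.integral_add_adjacent_intervals (hσ.continuous.intervalIntegrable _ _)
        (hσ.continuous.intervalIntegrable _ _)
    have h2 : (∫ t in x..(x + L), σ t) = ∫ t in (0 : ℝ)..(0 + L), σ t :=
      hσper.intervalIntegral_add_eq x 0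
    simp only [hSgdef]
    rw [← h1, h2, zero_add]
  have hSgL : 0 < Sg L :=
    intervalIntegral.intervalIntegral_pos_of_pos_on (hσ.continuous.intervalIntegrable _ _)
      (fun x _ => hσpos x) hL
  set R : ℝ := Sg L / (2 * π) with hRdef
  have hRpos : 0 < R := div_pos hSgL (by positivity)
  set φ : ℝ → ℝ := fun x => Sg x / R with hφdef
  have hφ : ContDiff ℝ ∞ φ := hSg.div_const R
  have hφper : ∀ x, φ (x + L) = φ x + 2 * π := by
    intro x
    simp only [hφdef, hSgper x, add_div]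
    congr 1
    rw [hRdef]
    field_simp
  have hφd : ∀ x, deriv φ x = σ x / R := fun x => ((hSgd x).div_const R).deriv
  refine ⟨torusMap r φ k R, torusMap_contDiff _ _ hr hφ, ?_, ?_, ?_⟩
  · intro x y
    simp only [torusMap, hrper x, hφper x, Real.cos_add_two_pi, Real.sin_add_two_pi]
  · intro x y
    have hc : cos ((k : ℝ) * (y + 2 * π)) = cos (k * y) := by
      rw [mul_add]
      exact Real.cos_add_nat_mul_two_pi _ k
    have hs : sin ((k : ℝ) * (y + 2 * π)) = sin (k * y) := by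
      rw [mul_add]
      exact Real.sin_add_nat_mul_two_pi _ k
    simp only [torusMap, hc, hs]
  · intro p v w
    rw [torusMap_inner hkpos.ne' hr hφ, hφd, hr2]
    have h := hσ2 p.1
    have hR : R ≠ 0 := hRpos.ne'
    have e : deriv r p.1 ^ 2 / (k : ℝ) ^ 2 + R ^ 2 * (σ p.1 / R) ^ 2 = E p.1 := by
      field_simp
      field_simp at h
      linarith
    rw [e]

end Vale.Agent.Lib.P205
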